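import Vale.Agent.P268.H671.LargeTop
import Vale.Agent.P268W88.Poly

/-!
# P268: Zariski's multiplicity conjecture is false, in the ring of convergent power series

The question is stated and answered over the ring of convergent power series itself, with
irreducible factors taken in that ring and the order read from the coefficients; the ring is
identified with the ring of germs of analytic functions.
-/

namespace Vale.Agent.Results.P268.ConvergentSeries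

open Filter Topology MvPowerSeries Vale.Agent.P268W88

theorem result :
    (¬ ∀ N ≥ 1, ∀ f g : Cvg N, IsGerm f → IsGerm g → Reduced f → Reduced g → AmbHomeo f g →
      f.1.order = g.1.order) ∧
    (∃ N₀ : ℕ, ∀ N ≥ N₀, ∃ f g : Cvg N, AmbHomeo f g ∧ f.1.order = 3 ∧ g.1.order = 2 ∧
      ∀ h : Cvg N, h = f ∨ h = g → IsGerm h ∧ Reduced h ∧
        (∃ p : MvPolynomial (Fin N) ℤ, ∀ a, coeff a h.1 = ((p.coeff a : ℤ) : ℂ)) ∧
        ∀ z, fderiv ℂ (val h) z = 0 → z = 0) ∧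
    ∀ N : ℕ,
      (∀ f : Cvg N, AnalyticAt ℂ (val f) 0) ∧
      (∀ F : (Fin N → ℂ) → ℂ, AnalyticAt ℂ F 0 → ∃! f : Cvg N, val f =ᶠ[𝓝 0] F) ∧
      (∀ f g : Cvg N, val (f + g) =ᶠ[𝓝 0] val f + val g ∧ val (f * g) =ᶠ[𝓝 0] val f * val g) ∧
      (∀ f : Cvg N, IsUnit f ↔ val f 0 ≠ 0) ∧
      (∀ (f : Cvg N) (m : ℕ),
        f.1.order = m ↔ IsLeast {k : ℕ | iteratedFDeriv ℂ k (val f) 0 ≠ 0} m) ∧
      ∀ f : Cvg N, f ≠ 0 →
        (∃ s : Multiset (Cvg N), (∀ u ∈ s, Irreducible u) ∧ Associated s.prod f) ∧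
        (Reduced f ↔ Squarefree f) := by
  have key : ∃ N₀ : ℕ, ∀ N ≥ N₀, ∃ f g : Cvg N, AmbHomeo f g ∧ f.1.order = 3 ∧ g.1.order = 2 ∧
      ∀ h : Cvg N, h = f ∨ h = g → IsGerm h ∧ Reduced h ∧
        (∃ p : MvPolynomial (Fin N) ℤ, ∀ a, coeff a h.1 = ((p.coeff a : ℤ) : ℂ)) ∧
        ∀ z, fderiv ℂ (val h) z = 0 → z = 0 := by
    obtain ⟨N₀, hN₀⟩ := Vale.Agent.P268.H671.large
    refine ⟨N₀, fun N hN => ?_⟩
    obtain ⟨p, q, φ, h0, hφ, hp, hq, hr⟩ := hN₀ N hN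
    have hp' : (ofInt p).1.order = (3 : ℕ) :=
      order_of_sInf (by rw [val_ofInt]; exact hp) (by norm_num)
    have hq' : (ofInt q).1.order = (2 : ℕ) :=
      order_of_sInf (by rw [val_ofInt]; exact hq) (by norm_num)
    have aux : ∀ r : MvPolynomial (Fin N) ℤ, r = p ∨ r = q → IsGerm (ofInt r) →
        IsGerm (ofInt r) ∧ Reduced (ofInt r) ∧
        (∃ p : MvPolynomial (Fin N) ℤ, ∀ a, coeff a (ofInt r).1 = ((p.coeff a : ℤ) : ℂ)) ∧
        ∀ z, fderiv ℂ (val (ofInt r)) z = 0 → z = 0 := by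
      intro r hr' hg
      obtain ⟨h1, h2, -⟩ := hr r hr'
      refine ⟨hg, (reduced_iff hg.1).2 ((squarefree_iff _).2 ?_), ⟨r, coeff_ofInt r⟩, ?_⟩
      · rw [val_ofInt]
        exact h1.2.2
      · rw [val_ofInt]
        exact h2
    refine ⟨ofInt p, ofInt q, amb_ofInt φ h0 hφ, hp', hq', ?_⟩
    rintro h (rfl | rfl)
    · exact aux p (Or.inl rfl) (isGerm_of_order hp' (by norm_num))
    · exact aux q (Or.inr rfl) (isGerm_of_order hq' (by norm_num))
  refine ⟨fun H => ?_, key, fun N => ⟨val_analytic, fun F hF => ?_,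
    fun f g => ⟨val_add f g, val_mul f g⟩, fun f => ?_, order_iff, fun f hf => ⟨?_, reduced_iff hf⟩⟩⟩
  · obtain ⟨N₀, hN₀⟩ := key
    obtain ⟨f, g, ha, hf, hg, h⟩ := hN₀ (N₀ + 1) (Nat.le_succ N₀)
    have h1 := H (N₀ + 1) (Nat.succ_pos N₀) f g (h f (Or.inl rfl)).1 (h g (Or.inr rfl)).1
      (h f (Or.inl rfl)).2.1 (h g (Or.inr rfl)).2.1 ha
    rw [hf, hg] at h1
    exact absurd h1 (by decide)
  · obtain ⟨f, hf⟩ := val_surj hF
    exact ⟨f, hf, fun g hg => val_inj (hg.trans hf.symm)⟩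
  · rw [isUnit_iff, val_zero]
  · have := wf (N := N)
    exact WfDvdMonoid.exists_factors f hf

end Vale.Agent.Results.P268.ConvergentSeries
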